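import Vale.Agent.P318.R2.H202.GrassDefs
import Vale.Agent.P318.R2.H704.SubTrans

/-!
# Signed functions on the subspaces of a finite vector space: zero sums and three values
-/

open Finset Module

namespace Vale.Agent.P318.R2.H202.Grass

section alg

variable {F E : Type*} [Field F] [AddCommGroup E] [Module F E] {j : ℕ} {hh : F → ℝ}
  {p q : E →ₗ[F] (Fin j → F)}

lemma gg_of {J : Submodule F E} (h : Function.Bijective (p.domRestrict J))
    (M : (Fin j → F) →ₗ[F] (Fin j → F)) (hM : ∀ x ∈ J, M (p x) = q x) :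
    gg hh p q J = hh (LinearMap.trace F (Fin j → F) M) := by
  unfold gg
  rw [dif_pos h]
  congr 2
  refine LinearMap.ext fun v => ?_
  obtain ⟨x, rfl⟩ := (LinearEquiv.ofBijective (p.domRestrict J) h).surjective v
  simp only [LinearMap.comp_apply, LinearEquiv.coe_coe, LinearEquiv.symm_apply_apply]
  rw [LinearEquiv.ofBijective_apply, LinearMap.domRestrict_apply, LinearMap.domRestrict_apply]
  exact (hM x x.2).symm

lemma gg_not {J : Submodule F E} (h : ¬ Function.Bijective (p.domRestrict J)) :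
    gg hh p q J = 0 := by
  unfold gg
  rw [dif_neg h]

lemma exists_mat {J : Submodule F E} (h : Function.Bijective (p.domRestrict J)) :
    ∃ M : (Fin j → F) →ₗ[F] (Fin j → F), ∀ x ∈ J, M (p x) = q x := by
  refine ⟨(q.domRestrict J) ∘ₗ (LinearEquiv.ofBijective (p.domRestrict J) h).symm.toLinearMap,
    fun x hx => ?_⟩
  have h1 : p x = LinearEquiv.ofBijective (p.domRestrict J) h ⟨x, hx⟩ := by
    rw [LinearEquiv.ofBijective_apply, LinearMap.domRestrict_apply]
  have h2 : (LinearEquiv.ofBijective (p.domRestrict J) h).symm (p x) = ⟨x, hx⟩ := by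
    rw [h1, LinearEquiv.symm_apply_apply]
  rw [LinearMap.comp_apply, LinearEquiv.coe_coe, h2]
  rfl

/-- the transvection `x + t λ(p x) w` -/
def tvL (p : E →ₗ[F] (Fin j → F)) (lam : (Fin j → F) →ₗ[F] F) (w : E) (t : F) : E →ₗ[F] E :=
  LinearMap.id + (t • (lam ∘ₗ p)).smulRight w

lemma tvL_apply (lam : (Fin j → F) →ₗ[F] F) (w : E) (t : F) (x : E) :
    tvL p lam w t x = x + (t * lam (p x)) • w := by
  simp [tvL]

lemma tvL_comp {lam : (Fin j → F) →ₗ[F] F} {w : E} (hw : p w = 0) (t : F) :
    tvL p lam w t ∘ₗ tvL p lam w (-t) = LinearMap.id := by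
  refine LinearMap.ext fun x => ?_
  rw [LinearMap.comp_apply, tvL_apply, tvL_apply, map_add, map_smul, hw, smul_zero, add_zero,
    LinearMap.id_apply, add_assoc, ← add_smul]
  have : -t * lam (p x) + t * lam (p x) = 0 := by ring
  rw [this, zero_smul, add_zero]

/-- the transvection as an equivalence -/
def tv (p : E →ₗ[F] (Fin j → F)) (lam : (Fin j → F) →ₗ[F] F) {w : E} (hw : p w = 0) (t : F) :
    E ≃ₗ[F] E :=
  LinearEquiv.ofLinearMap (tvL p lam w t) (tvL p lam w (-t)) (tvL_comp hw t)
    (by simpa using tvL_comp (lam := lam) hw (-t))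

lemma tv_apply (lam : (Fin j → F) →ₗ[F] F) {w : E} (hw : p w = 0) (t : F) (x : E) :
    tv p lam hw t x = x + (t * lam (p x)) • w := tvL_apply lam w t x

lemma tv_symm_apply (lam : (Fin j → F) →ₗ[F] F) {w : E} (hw : p w = 0) (t : F) (x : E) :
    (tv p lam hw t).symm x = x + (-t * lam (p x)) • w := tvL_apply lam w (-t) x

lemma p_tv (lam : (Fin j → F) →ₗ[F] F) {w : E} (hw : p w = 0) (t : F) (x : E) :
    p (tv p lam hw t x) = p x := by
  rw [tv_apply, map_add, map_smul, hw, smul_zero, add_zero]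

/-- image of a subspace under the transvection -/
def im (p : E →ₗ[F] (Fin j → F)) (lam : (Fin j → F) →ₗ[F] F) {w : E} (hw : p w = 0) (t : F)
    (J : Submodule F E) : Submodule F E := J.map (tv p lam hw t).toLinearMap

lemma mem_im (lam : (Fin j → F) →ₗ[F] F) {w : E} (hw : p w = 0) (t : F) (J : Submodule F E)
    (x : E) : x ∈ im p lam hw t J ↔ ∃ y ∈ J, tv p lam hw t y = x := Submodule.mem_map

lemma im_im (lam : (Fin j → F) →ₗ[F] F) {w : E} (hw : p w = 0) (t : F) (J : Submodule F E) :
    im p lam hw t (im p lam hw (-t) J) = J := by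
  ext x
  rw [mem_im]
  constructor
  · rintro ⟨y, hy, rfl⟩
    obtain ⟨z, hz, rfl⟩ := (mem_im lam hw (-t) J y).1 hy
    have h1 : tv p lam hw t (tv p lam hw (-t) z) = z := by
      rw [tv_apply, p_tv, tv_apply, add_assoc, ← add_smul]
      have : -t * lam (p z) + t * lam (p z) = 0 := by ring
      rw [this, zero_smul, add_zero]
    rw [h1]
    exact hz
  · intro hx
    refine ⟨tv p lam hw (-t) x, (mem_im lam hw (-t) J _).2 ⟨x, hx, rfl⟩, ?_⟩
    rw [tv_apply, p_tv, tv_apply, add_assoc, ← add_smul]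
    have : -t * lam (p x) + t * lam (p x) = 0 := by ring
    rw [this, zero_smul, add_zero]

lemma im_im' (lam : (Fin j → F) →ₗ[F] F) {w : E} (hw : p w = 0) (t : F) (J : Submodule F E) :
    im p lam hw (-t) (im p lam hw t J) = J := by
  have h := im_im lam hw (-t) J
  rwa [neg_neg] at h

lemma finrank_im (lam : (Fin j → F) →ₗ[F] F) {w : E} (hw : p w = 0) (t : F)
    (J : Submodule F E) : finrank F (im p lam hw t J) = finrank F J :=
  LinearEquiv.finrank_map_eq (tv p lam hw t) J

lemma bij_im (lam : (Fin j → F) →ₗ[F] F) {w : E} (hw : p w = 0) (t : F) {J : Submodule F E}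
    (h : Function.Bijective (p.domRestrict J)) :
    Function.Bijective (p.domRestrict (im p lam hw t J)) := by
  constructor
  · rintro ⟨x, hx⟩ ⟨y, hy⟩ hxy
    obtain ⟨x', hx', rfl⟩ := (mem_im lam hw t J x).1 hx
    obtain ⟨y', hy', rfl⟩ := (mem_im lam hw t J y).1 hy
    simp only [LinearMap.domRestrict_apply, p_tv] at hxy
    have h1 : (⟨x', hx'⟩ : J) = ⟨y', hy'⟩ := h.1 (by simpa using hxy)
    have h2 : x' = y' := congrArg Subtype.val h1
    subst h2
    rfl
  · intro v
    obtain ⟨⟨x, hx⟩, hv⟩ := h.2 v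
    refine ⟨⟨tv p lam hw t x, (mem_im lam hw t J _).2 ⟨x, hx, rfl⟩⟩, ?_⟩
    rw [LinearMap.domRestrict_apply] at hv ⊢
    simp only [p_tv]
    exact hv

lemma bij_im_iff (lam : (Fin j → F) →ₗ[F] F) {w : E} (hw : p w = 0) (t : F)
    {J : Submodule F E} : Function.Bijective (p.domRestrict (im p lam hw t J)) ↔
      Function.Bijective (p.domRestrict J) := by
  refine ⟨fun h => ?_, bij_im lam hw t⟩
  have h1 := bij_im lam hw (-t) h
  rwa [im_im'] at h1

lemma gg_im {lam : (Fin j → F) →ₗ[F] F} {w : E} (hw : p w = 0) (h1 : lam (q w) = 1) (t : F)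
    {J : Submodule F E} (h : Function.Bijective (p.domRestrict J))
    {M : (Fin j → F) →ₗ[F] (Fin j → F)} (hM : ∀ x ∈ J, M (p x) = q x) :
    gg hh p q (im p lam hw t J) = hh (LinearMap.trace F (Fin j → F) M + t) := by
  rw [gg_of (bij_im lam hw t h) (M + t • lam.smulRight (q w))]
  · rw [map_add, map_smul, LinearMap.trace_smulRight, h1, smul_eq_mul, mul_one]
  · intro x hx
    obtain ⟨y, hy, rfl⟩ := (mem_im lam hw t J x).1 hx
    rw [p_tv, tv_apply, map_add, map_smul]
    simp only [LinearMap.add_apply, LinearMap.smul_apply, LinearMap.smulRight_apply, hM y hy]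
    rw [smul_smul]

end alg

section fin

variable {F E : Type*} [Field F] [Fintype F] [AddCommGroup E] [Module F E]
  {j : ℕ} {hh : F → ℝ} {p q : E →ₗ[F] (Fin j → F)}

lemma sum_im {lam : (Fin j → F) →ₗ[F] F} {w : E} (hsum : ∑ a, hh a = 0) (hw : p w = 0)
    (h1 : lam (q w) = 1) (J : Submodule F E) : ∑ t : F, gg hh p q (im p lam hw t J) = 0 := by
  by_cases h : Function.Bijective (p.domRestrict J)
  · obtain ⟨M, hM⟩ := exists_mat (q := q) h
    simp_rw [gg_im hw h1 _ h hM]
    rw [← hsum]
    exact Equiv.sum_comp (Equiv.addLeft (LinearMap.trace F (Fin j → F) M)) hh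
  · exact Finset.sum_eq_zero fun t _ => gg_not fun h2 => h ((bij_im_iff lam hw t).1 h2)

/-- the sum over a family stable under the transvections is zero -/
lemma sum_stable {lam : (Fin j → F) →ₗ[F] F} {w : E} (hsum : ∑ a, hh a = 0) (hw : p w = 0)
    (h1 : lam (q w) = 1) (s : Finset (Submodule F E))
    (hs : ∀ t : F, ∀ J ∈ s, im p lam hw t J ∈ s) : ∑ J ∈ s, gg hh p q J = 0 := by
  have h2 : ∀ t : F, ∑ J ∈ s, gg hh p q (im p lam hw t J) = ∑ J ∈ s, gg hh p q J := by
    intro t
    refine Finset.sum_bij' (fun J _ => im p lam hw t J) (fun J _ => im p lam hw (-t) J)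
      (fun J hJ => hs t J hJ) (fun J hJ => hs (-t) J hJ) (fun J _ => im_im' lam hw t J)
      (fun J _ => im_im lam hw t J) fun J _ => rfl
  have h3 : ∑ t : F, ∑ J ∈ s, gg hh p q (im p lam hw t J) = 0 := by
    rw [Finset.sum_comm]
    exact Finset.sum_eq_zero fun J _ => sum_im hsum hw h1 J
  simp_rw [h2] at h3
  rw [Finset.sum_const, nsmul_eq_mul, mul_eq_zero] at h3
  rcases h3 with h3 | h3
  · exfalso
    have : (Finset.univ : Finset F).card ≠ 0 := by
      rw [Finset.card_univ]
      exact Fintype.card_ne_zero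
    exact this (by exact_mod_cast h3)
  · exact h3

variable [Fintype E] [Fintype (Submodule F E)]

-- P3a
open Classical in
theorem gg_zero (hsum : ∑ a, hh a = 0) (hpq : ∀ u, ∃ w, p w = 0 ∧ q w = u)
    (L : Submodule F E) (hL : finrank F L < j) :
    ∑ J ∈ univ.filter (fun J : Submodule F E => finrank F J = j ∧ L ≤ J), gg hh p q J = 0 := by
  have hlt : L.map p < ⊤ := by
    refine lt_top_iff_ne_top.2 fun h => ?_
    have h1 := Submodule.finrank_map_le p L
    rw [h, finrank_top, finrank_fin_fun] at h1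
    omega
  obtain ⟨lam0, hlam0, hker⟩ := Submodule.exists_le_ker_of_lt_top _ hlt
  obtain ⟨u0, hu0⟩ : ∃ u, lam0 u ≠ 0 := by
    by_contra hcon
    push Not at hcon
    exact hlam0 (LinearMap.ext hcon)
  obtain ⟨w, hw, hqw⟩ := hpq ((lam0 u0)⁻¹ • u0)
  have h1 : lam0 (q w) = 1 := by
    rw [hqw, map_smul, smul_eq_mul, inv_mul_cancel₀ hu0]
  refine sum_stable hsum hw h1 _ fun t J hJ => ?_
  rw [mem_filter] at hJ ⊢
  refine ⟨mem_univ _, by rw [finrank_im]; exact hJ.2.1, fun x hx => ?_⟩
  rw [mem_im]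
  refine ⟨x, hJ.2.2 hx, ?_⟩
  have h2 : lam0 (p x) = 0 := hker (Submodule.mem_map_of_mem hx)
  rw [tv_apply, h2, mul_zero, zero_smul, add_zero]

/-- the subspaces of dimension `j` of `S` that are transversal to the kernel of `p` -/
noncomputable def cnt (p : E →ₗ[F] (Fin j → F)) (S : Submodule F E) : ℕ := by
  classical
  exact (univ.filter fun J : Submodule F E => finrank F J = j ∧ J ≤ S ∧
    J ⊓ LinearMap.ker p = ⊥).card

omit [Fintype F] [Fintype (Submodule F E)] in
lemma bij_iff {J : Submodule F E} (hJ : finrank F J = j) :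
    Function.Bijective (p.domRestrict J) ↔ J ⊓ LinearMap.ker p = ⊥ := by
  have h1 : Function.Injective (p.domRestrict J) ↔ J ⊓ LinearMap.ker p = ⊥ := by
    rw [← LinearMap.ker_eq_bot, LinearMap.ker_domRestrict, Submodule.eq_bot_iff,
      Submodule.eq_bot_iff]
    constructor
    · rintro h x ⟨hx1, hx2⟩
      have := h ⟨x, hx1⟩ (by simpa using hx2)
      exact congrArg Subtype.val this
    · rintro h ⟨x, hx⟩ hx2
      have : x = 0 := h x ⟨hx, by simpa using hx2⟩
      exact Subtype.ext this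
  rw [← h1]
  refine ⟨fun h => h.1, fun h => ⟨h, ?_⟩⟩
  exact (LinearMap.injective_iff_surjective_of_finrank_eq_finrank
    (by rw [hJ, finrank_fin_fun])).1 h

omit [Fintype F] in
lemma cnt_eq {k : ℕ} {S S' : Submodule F E} (hS : finrank F S = k) (hS' : finrank F S' = k)
    (h : S.map p = ⊤) (h' : S'.map p = ⊤) : cnt p S = cnt p S' := by
  classical
  have hfr : ∀ T : Submodule F E, finrank F T = k → T.map p = ⊤ →
      j + finrank F (T ⊓ LinearMap.ker p : Submodule F E) = k := by
    intro T hT hTp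
    have h1 := (p.domRestrict T).finrank_range_add_finrank_ker
    have h2 : LinearMap.range (p.domRestrict T) = ⊤ := by
      rw [LinearMap.range_domRestrict, hTp]
    have h3 : finrank F (LinearMap.ker (p.domRestrict T)) =
        finrank F (T ⊓ LinearMap.ker p : Submodule F E) := by
      rw [LinearMap.ker_domRestrict]
      have e : T ⊓ LinearMap.ker p = ((LinearMap.ker p).comap T.subtype).map T.subtype := by
        rw [Submodule.map_comap_subtype]
      rw [e]
      exact (Submodule.equivMapOfInjective T.subtype T.injective_subtype _).finrank_eq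
    rw [h2, finrank_top, finrank_fin_fun, h3, hT] at h1
    exact h1
  have e1 := hfr S hS h
  have e2 := hfr S' hS' h'
  obtain ⟨g, hg1, hg2⟩ := Vale.Agent.P318.R2.H704.sub_trans S (LinearMap.ker p) S'
    (LinearMap.ker p) (by rw [hS, hS']) rfl (by omega)
  have key : ∀ (g : E ≃ₗ[F] E) (A B : Submodule F E), A.map g.toLinearMap = B →
      (LinearMap.ker p).map g.toLinearMap = LinearMap.ker p → cnt p A ≤ cnt p B := by
    intro g A B hA hK
    unfold cnt
    refine card_le_card_of_injOn (fun J => J.map g.toLinearMap) (fun J hJ => ?_) ?_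
    · rw [mem_coe, mem_filter] at hJ ⊢
      refine ⟨mem_univ _, ?_, ?_, ?_⟩
      · rw [← hJ.2.1]
        exact LinearEquiv.finrank_map_eq g J
      · rw [← hA]
        exact Submodule.map_mono hJ.2.2.1
      · rw [← hK, ← Submodule.map_inf _ g.injective, hJ.2.2.2, Submodule.map_bot]
    · exact (Submodule.map_injective_of_injective (f := g.toLinearMap) g.injective).injOn
  refine le_antisymm (key g S S' hg1 hg2) (key g.symm S' S ?_ ?_)
  · rw [← hg1, ← Submodule.map_comp]
    simp
  · conv_lhs => rw [← hg2]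
    rw [← Submodule.map_comp]
    simp

-- P3b
open Classical in
theorem gg_tri (htri : ∀ a, hh a = -1 ∨ hh a = 0 ∨ hh a = 1) (hsum : ∑ a, hh a = 0)
    (_hpq : ∀ u, ∃ w, p w = 0 ∧ q w = u) (k : ℕ) :
    ∃ C : ℝ, ∀ S : Submodule F E, finrank F S = k →
      (∑ J ∈ univ.filter (fun J : Submodule F E => finrank F J = j ∧ J ≤ S), gg hh p q J = -C ∨
       ∑ J ∈ univ.filter (fun J : Submodule F E => finrank F J = j ∧ J ≤ S), gg hh p q J = 0 ∨
       ∑ J ∈ univ.filter (fun J : Submodule F E => finrank F J = j ∧ J ≤ S),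
          gg hh p q J = C) := by
  have hC : ∃ C : ℝ, ∀ S : Submodule F E, finrank F S = k → S.map p = ⊤ → (cnt p S : ℝ) = C := by
    by_cases hex : ∃ S₀ : Submodule F E, finrank F S₀ = k ∧ S₀.map p = ⊤
    · obtain ⟨S₀, h1, h2⟩ := hex
      exact ⟨cnt p S₀, fun S hS hp => by rw [cnt_eq hS h1 hp h2]⟩
    · exact ⟨0, fun S hS hp => absurd ⟨S, hS, hp⟩ hex⟩
  obtain ⟨C, hC⟩ := hC
  refine ⟨C, fun S hS => ?_⟩
  by_cases htop : S.map p = ⊤
  swap
  · right; left
    refine Finset.sum_eq_zero fun J hJ => gg_not fun hb => htop ?_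
    rw [eq_top_iff]
    intro v _
    obtain ⟨⟨x, hx⟩, hv⟩ := hb.2 v
    exact ⟨x, (mem_filter.1 hJ).2.2 hx, by simpa using hv⟩
  by_cases hw : ∃ w ∈ S, p w = 0 ∧ q w ≠ 0
  · obtain ⟨w, hwS, hpw, hqw⟩ := hw
    obtain ⟨i, hi⟩ : ∃ i, q w i ≠ 0 := by
      by_contra hcon
      push Not at hcon
      exact hqw (funext hcon)
    have h1 : ((q w i)⁻¹ • (LinearMap.proj i : (Fin j → F) →ₗ[F] F)) (q w) = 1 := by
      rw [LinearMap.smul_apply, LinearMap.proj_apply, smul_eq_mul, inv_mul_cancel₀ hi]
    right; left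
    refine sum_stable hsum hpw h1 _ fun t J hJ => ?_
    rw [mem_filter] at hJ ⊢
    refine ⟨mem_univ _, by rw [finrank_im]; exact hJ.2.1, fun x hx => ?_⟩
    obtain ⟨y, hy, rfl⟩ := (mem_im _ hpw t J x).1 hx
    rw [tv_apply]
    exact S.add_mem (hJ.2.2 hy) (S.smul_mem _ hwS)
  · push Not at hw
    obtain ⟨M, hM⟩ : ∃ M : (Fin j → F) →ₗ[F] (Fin j → F), ∀ x ∈ S, M (p x) = q x := by
      have hsurj : Function.Surjective (p.domRestrict S) := by
        rw [← LinearMap.range_eq_top, LinearMap.range_domRestrict]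
        exact htop
      obtain ⟨r, hr⟩ := (p.domRestrict S).exists_rightInverse_of_surjective
        (LinearMap.range_eq_top.2 hsurj)
      refine ⟨(q.domRestrict S) ∘ₗ r, fun x hx => ?_⟩
      have h2 : p ((r (p x) : S) : E) = p x := by
        have := LinearMap.congr_fun hr (p x)
        simpa using this
      have h3 := hw ((r (p x) : S) - x) (S.sub_mem (r (p x)).2 hx) (by rw [map_sub, h2, sub_self])
      rw [map_sub, sub_eq_zero] at h3
      simpa using h3
    have hval : ∑ J ∈ univ.filter (fun J : Submodule F E => finrank F J = j ∧ J ≤ S),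
        gg hh p q J = hh (LinearMap.trace F (Fin j → F) M) * C := by
      rw [← hC S hS htop]
      have h4 : ∀ J ∈ univ.filter (fun J : Submodule F E => finrank F J = j ∧ J ≤ S),
          gg hh p q J = if J ⊓ LinearMap.ker p = ⊥ then hh (LinearMap.trace F (Fin j → F) M)
            else 0 := by
        intro J hJ
        have hJ' := (mem_filter.1 hJ).2
        split_ifs with h5
        · exact gg_of ((bij_iff hJ'.1).2 h5) M fun x hx => hM x (hJ'.2 hx)
        · exact gg_not fun h6 => h5 ((bij_iff hJ'.1).1 h6)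
      rw [Finset.sum_congr rfl h4, ← Finset.sum_filter, Finset.sum_const, nsmul_eq_mul, mul_comm]
      congr 2
      unfold cnt
      rw [Finset.filter_filter]
      congr 1
      ext J
      simp only [mem_filter, mem_univ, true_and, and_assoc]
    rw [hval]
    rcases htri (LinearMap.trace F (Fin j → F) M) with h | h | h
    · left; rw [h]; ring
    · right; left; rw [h, zero_mul]
    · right; right; rw [h, one_mul]

end fin

end Vale.Agent.P318.R2.H202.Grass
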