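import Vale.Agent.P318.R2.H344.Abel

/-!
# Differences up to sign on abelian groups of exponent dividing four or six
-/

open Finset

set_option linter.unusedSectionVars false

namespace Vale.Agent.P318.R2.H305

open Vale.Agent.P318.R2.H202 Vale.Agent.P318.R2.H344

/-- transfer of a signed scheme to a relation with the same classes -/
theorem signed_transfer {V R₁ R₂ : Type*} [Fintype V] {ρ₁ : V → V → R₁} {ρ₂ : V → V → R₂}
    (h : ∀ x y x' y', ρ₁ x y = ρ₁ x' y' ↔ ρ₂ x y = ρ₂ x' y') (h1 : SignedScheme ρ₁) :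
    SignedScheme ρ₂ := by
  classical
  have sub : signedEigen ρ₁ ⊆ signedEigen ρ₂ := by
    rintro f ⟨hf1, hf2⟩
    refine ⟨hf1, fun r => ?_⟩
    by_cases hr : ∃ x0 y0, ρ₂ x0 y0 = r
    · obtain ⟨x0, y0, hr⟩ := hr
      obtain ⟨μ, hμ⟩ := hf2 (ρ₁ x0 y0)
      refine ⟨μ, fun x => ?_⟩
      rw [← hμ x]
      refine sum_congr ?_ fun _ _ => rfl
      ext y
      simp only [mem_filter, mem_univ, true_and]
      rw [← hr]
      exact (h x y x0 y0).symm
    · refine ⟨0, fun x => ?_⟩
      rw [zero_mul]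
      refine sum_eq_zero fun y hy => ?_
      exact absurd ⟨x, y, (mem_filter.1 hy).2⟩ hr
  refine ⟨sub h1.one_mem, ?_⟩
  rw [eq_top_iff, ← h1.span]
  exact Submodule.span_mono sub

lemma zsmul_mod {A : Type*} [AddCommGroup A] {z : A} {e : ℤ} (he : e • z = 0) (m : ℤ) :
    m • z = (m % e) • z := by
  calc m • z = (m % e + e * (m / e)) • z := by rw [Int.emod_add_mul_ediv]
    _ = (m % e) • z + (m / e) • (e • z) := by rw [add_smul, mul_comm e, mul_smul]
    _ = (m % e) • z := by rw [he, smul_zero, add_zero]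

/-- one half of the description of the generators of a cyclic subgroup -/
lemma eq_or_neg {A : Type*} [AddCommGroup A]
    (h : (∀ a : A, 4 • a = 0) ∨ (∀ a : A, 6 • a = 0)) {z z' : A} {m k : ℤ} (hm : m • z = z')
    (hk : k • z' = z) : z' = z ∨ z' = -z := by
  have h0 : z' = 0 → z' = z := fun h1 => by rw [← hk, h1, smul_zero]
  rcases h with h | h
  · have e4 : (4 : ℤ) • z = 0 := by
      have := h z
      rw [← natCast_zsmul] at this
      exact_mod_cast this
    rw [zsmul_mod e4] at hm
    have h2 : ∀ w : A, (2 : ℤ) • w = 0 → (2 : ℤ) • (k • w) = 0 := fun w hw => by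
      rw [smul_comm, hw, smul_zero]
    rcases (show m % 4 = 0 ∨ m % 4 = 1 ∨ m % 4 = 2 ∨ m % 4 = 3 by omega) with e | e | e | e
    · rw [e, zero_smul] at hm
      exact Or.inl (h0 hm.symm)
    · rw [e, one_smul] at hm
      exact Or.inl hm.symm
    · rw [e] at hm
      have h3 : (2 : ℤ) • z' = 0 := by
        rw [← hm, smul_smul]
        exact e4
      have h4 := h2 z' h3
      rw [hk, hm] at h4
      exact Or.inl (h0 h4)
    · rw [e] at hm
      right
      rw [← hm, eq_neg_iff_add_eq_zero]
      have : (3 : ℤ) • z + z = (4 : ℤ) • z := by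
        rw [show (4 : ℤ) = 3 + 1 by norm_num, add_smul, one_smul]
      rw [this, e4]
  · have e6 : (6 : ℤ) • z = 0 := by
      have := h z
      rw [← natCast_zsmul] at this
      exact_mod_cast this
    rw [zsmul_mod e6] at hm
    have h2 : ∀ (t : ℤ) (w : A), t • w = 0 → t • (k • w) = 0 := fun t w hw => by
      rw [smul_comm, hw, smul_zero]
    rcases (show m % 6 = 0 ∨ m % 6 = 1 ∨ m % 6 = 2 ∨ m % 6 = 3 ∨ m % 6 = 4 ∨ m % 6 = 5 by omega)
      with e | e | e | e | e | e
    · rw [e, zero_smul] at hm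
      exact Or.inl (h0 hm.symm)
    · rw [e, one_smul] at hm
      exact Or.inl hm.symm
    · rw [e] at hm
      have h3 : (3 : ℤ) • z' = 0 := by
        rw [← hm, smul_smul]
        exact e6
      have h4 := h2 3 z' h3
      rw [hk] at h4
      right
      rw [← hm, eq_neg_iff_add_eq_zero]
      have : (2 : ℤ) • z + z = (3 : ℤ) • z := by
        rw [show (3 : ℤ) = 2 + 1 by norm_num, add_smul, one_smul]
      rw [this, h4]
    · rw [e] at hm
      have h3 : (2 : ℤ) • z' = 0 := by
        rw [← hm, smul_smul]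
        exact e6
      have h4 := h2 2 z' h3
      rw [hk] at h4
      left
      rw [← hm]
      have : (3 : ℤ) • z = (2 : ℤ) • z + z := by
        rw [show (3 : ℤ) = 2 + 1 by norm_num, add_smul, one_smul]
      rw [this, h4, zero_add]
    · rw [e] at hm
      have h3 : (3 : ℤ) • z' = 0 := by
        rw [← hm, smul_smul, show (3 : ℤ) * 4 = 2 * 6 by norm_num, mul_smul, e6, smul_zero]
      have h4 := h2 3 z' h3
      rw [hk] at h4
      left
      rw [← hm]
      have : (4 : ℤ) • z = (3 : ℤ) • z + z := by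
        rw [show (4 : ℤ) = 3 + 1 by norm_num, add_smul, one_smul]
      rw [this, h4, zero_add]
    · rw [e] at hm
      right
      rw [← hm, eq_neg_iff_add_eq_zero]
      have : (5 : ℤ) • z + z = (6 : ℤ) • z := by
        rw [show (6 : ℤ) = 5 + 1 by norm_num, add_smul, one_smul]
      rw [this, e6]

/-- the generators of a cyclic subgroup -/
lemma zmultiples_eq_iff {A : Type*} [AddCommGroup A]
    (h : (∀ a : A, 4 • a = 0) ∨ (∀ a : A, 6 • a = 0)) (z z' : A) :
    AddSubgroup.zmultiples z = AddSubgroup.zmultiples z' ↔ z' = z ∨ z' = -z := by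
  constructor
  · intro he
    have h1 : z' ∈ AddSubgroup.zmultiples z := by
      rw [he]; exact AddSubgroup.mem_zmultiples z'
    have h2 : z ∈ AddSubgroup.zmultiples z' := by
      rw [← he]; exact AddSubgroup.mem_zmultiples z
    obtain ⟨m, hm⟩ := AddSubgroup.mem_zmultiples_iff.1 h1
    obtain ⟨k, hk⟩ := AddSubgroup.mem_zmultiples_iff.1 h2
    exact eq_or_neg h hm hk
  · rintro (rfl | rfl)
    · rfl
    · rw [AddSubgroup.zmultiples_neg]

/-- **Differences up to sign.** -/
theorem signed_pm (A : Type*) [AddCommGroup A] [Fintype A]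
    (h : (∀ a : A, 4 • a = 0) ∨ (∀ a : A, 6 • a = 0)) :
    SignedScheme (fun x y : A => ({x - y, y - x} : Set A)) := by
  refine signed_transfer (fun x y x' y' => ?_) (signed_abel A)
  rw [zmultiples_eq_iff h, ← neg_sub x y, ← neg_sub x' y', Set.pair_eq_pair_iff]
  generalize x - y = z
  generalize x' - y' = z'
  constructor
  · rintro (rfl | rfl)
    · exact Or.inl ⟨rfl, rfl⟩
    · exact Or.inr ⟨(neg_neg z).symm, rfl⟩
  · rintro (⟨h1, -⟩ | ⟨-, h2⟩)
    · exact Or.inl h1.symm
    · exact Or.inr h2.symm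

end Vale.Agent.P318.R2.H305
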