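import Vale.Agent.P318.R2.H821.Centres
import Vale.Agent.P318.H724.Main

/-!
# The main lemma for sets of small rank: either a good cut or many points in large balls

`good_rank_of` : the statement with the function `F` and the centres `p i` as a hypothesis.
-/

open Finset

set_option linter.unusedSectionVars false

namespace Vale.Agent.P318.R2.H305

open Vale.Agent.P318.H867 Vale.Agent.P318.H724 Vale.Agent.P318.R2.H344

variable {V : Type*} [Fintype V] [DecidableEq V] [Nontrivial V] {c d : V → V → ℝ}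

/-- truncation is 1-Lipschitz -/
lemma trunc_lip (a b s r : ℝ) :
    |max 0 (min (a - s) r) - max 0 (min (b - s) r)| ≤ |a - b| := by
  refine (abs_max_sub_max_le_max _ _ _ _).trans ?_
  rw [sub_self, abs_zero]
  refine max_le (abs_nonneg _) ?_
  refine (abs_min_sub_min_le_max _ _ _ _).trans ?_
  rw [sub_self, abs_zero]
  refine max_le ?_ (abs_nonneg _)
  have : a - s - (b - s) = a - b := by ring
  rw [this]

/-- truncation is 1-Lipschitz -/
lemma min_lip (a b r : ℝ) : |min a r - min b r| ≤ |a - b| := by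
  refine (abs_min_sub_min_le_max _ _ _ _).trans ?_
  rw [sub_self, abs_zero]
  exact max_le le_rfl (abs_nonneg _)

/-- The energy of a nonnegative function supported in `A`. -/
lemma energy_bound (hc : ∀ i j, 0 ≤ c i j) (hsym : ∀ i j, c i j = c j i)
    (hd : ∀ x y, 0 ≤ d x y) (hs : ∀ x y, d x y = d y x)
    {A : Finset V} {H : ℝ} (hH : 1 ≤ H) {h : V → ℝ} (hh0 : ∀ x, 0 ≤ h x)
    (hA0 : ∀ x ∉ A, h x = 0) (hlip : ∀ x ∈ A, ∀ y ∈ A, |h x - h y| ≤ d x y)
    (hout : ∑ x ∈ A, ∑ y ∈ Aᶜ, c x y * h x ≤ H * ∑ x ∈ A, ∑ y ∈ Aᶜ, c x y * d x y) :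
    ∑ x, ∑ y, c x y * |h x - h y| ≤ H * ∑ x, ∑ y, c x y * d x y := by
  have split : ∀ g : V → V → ℝ, ∑ x, ∑ y, g x y =
      ∑ x ∈ A, ∑ y ∈ A, g x y + ∑ x ∈ A, ∑ y ∈ Aᶜ, g x y + ∑ x ∈ Aᶜ, ∑ y ∈ A, g x y +
        ∑ x ∈ Aᶜ, ∑ y ∈ Aᶜ, g x y := by
    intro g
    rw [← sum_add_sum_compl A (fun x => ∑ y, g x y)]
    have : ∀ x, ∑ y, g x y = ∑ y ∈ A, g x y + ∑ y ∈ Aᶜ, g x y := fun x =>
      (sum_add_sum_compl A (fun y => g x y)).symm
    simp only [this, sum_add_distrib]
    ring
  rw [split (fun x y => c x y * |h x - h y|), split (fun x y => c x y * d x y)]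
  have hAA : ∑ x ∈ A, ∑ y ∈ A, c x y * |h x - h y| ≤ ∑ x ∈ A, ∑ y ∈ A, c x y * d x y :=
    sum_le_sum fun x hx => sum_le_sum fun y hy =>
      mul_le_mul_of_nonneg_left (hlip x hx y hy) (hc x y)
  have hCC : ∑ x ∈ Aᶜ, ∑ y ∈ Aᶜ, c x y * |h x - h y| = 0 := by
    refine sum_eq_zero fun x hx => sum_eq_zero fun y hy => ?_
    rw [hA0 x (mem_compl.1 hx), hA0 y (mem_compl.1 hy), sub_zero, abs_zero, mul_zero]
  have hAC : ∑ x ∈ A, ∑ y ∈ Aᶜ, c x y * |h x - h y| = ∑ x ∈ A, ∑ y ∈ Aᶜ, c x y * h x := by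
    refine sum_congr rfl fun x _ => sum_congr rfl fun y hy => ?_
    rw [hA0 y (mem_compl.1 hy), sub_zero, abs_of_nonneg (hh0 x)]
  have hCA : ∑ x ∈ Aᶜ, ∑ y ∈ A, c x y * |h x - h y| = ∑ x ∈ A, ∑ y ∈ Aᶜ, c x y * h x := by
    rw [sum_comm]
    refine sum_congr rfl fun y _ => sum_congr rfl fun x hx => ?_
    rw [hA0 x (mem_compl.1 hx), zero_sub, abs_neg, abs_of_nonneg (hh0 y), hsym x y]
  have hCA2 : ∑ x ∈ Aᶜ, ∑ y ∈ A, c x y * d x y = ∑ x ∈ A, ∑ y ∈ Aᶜ, c x y * d x y := by
    rw [sum_comm]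
    refine sum_congr rfl fun y _ => sum_congr rfl fun x _ => ?_
    rw [hsym x y, hs x y]
  have n1 : 0 ≤ ∑ x ∈ A, ∑ y ∈ A, c x y * d x y :=
    sum_nonneg fun x _ => sum_nonneg fun y _ => mul_nonneg (hc x y) (hd x y)
  have n2 : 0 ≤ ∑ x ∈ Aᶜ, ∑ y ∈ Aᶜ, c x y * d x y :=
    sum_nonneg fun x _ => sum_nonneg fun y _ => mul_nonneg (hc x y) (hd x y)
  rw [hCC, hAC, hCA, hCA2]
  nlinarith

/-- A function with large values on `P` and small values on `Q` has a large sum of differences. -/
lemma sum_abs_ge {g : V → ℝ} {P Q : Finset V} {r : ℝ}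
    (hPQ : ∀ x ∈ P, ∀ y ∈ Q, r ≤ g x - g y) (hdis : Disjoint P Q) :
    2 * ((P.card : ℝ) * Q.card * r) ≤ ∑ x, ∑ y, |g x - g y| := by
  have h1 : (P.card : ℝ) * Q.card * r ≤ ∑ x ∈ P, ∑ y ∈ Q, |g x - g y| := by
    calc (P.card : ℝ) * Q.card * r = ∑ x ∈ P, ∑ y ∈ Q, r := by
          simp only [sum_const, nsmul_eq_mul]; ring
      _ ≤ _ := sum_le_sum fun x hx => sum_le_sum fun y hy => (hPQ x hx y hy).trans (le_abs_self _)
  have h2 : (P.card : ℝ) * Q.card * r ≤ ∑ x ∈ Q, ∑ y ∈ P, |g x - g y| := by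
    refine h1.trans (le_of_eq ?_)
    rw [sum_comm]
    exact sum_congr rfl fun x _ => sum_congr rfl fun y _ => abs_sub_comm _ _
  have h3 : ∑ x ∈ P, ∑ y ∈ Q, |g x - g y| ≤ ∑ x ∈ P, ∑ y, |g x - g y| :=
    sum_le_sum fun x _ => sum_le_sum_of_subset_of_nonneg (subset_univ _) fun _ _ _ => abs_nonneg _
  have h4 : ∑ x ∈ Q, ∑ y ∈ P, |g x - g y| ≤ ∑ x ∈ Q, ∑ y, |g x - g y| :=
    sum_le_sum fun x _ => sum_le_sum_of_subset_of_nonneg (subset_univ _) fun _ _ _ => abs_nonneg _
  have h5 : ∑ x ∈ P, ∑ y, |g x - g y| + ∑ x ∈ Q, ∑ y, |g x - g y| ≤ ∑ x, ∑ y, |g x - g y| := by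
    rw [← sum_union hdis]
    exact sum_le_sum_of_subset_of_nonneg (subset_univ _) fun _ _ _ =>
      sum_nonneg fun _ _ => abs_nonneg _
  linarith

/-- A set partitioned into `k` classes: the points in small classes are few. -/
lemma small_classes {k : ℕ} (W : Finset V) (π : V → Fin k) {n : ℕ} :
    32 * k * (W.filter fun x => 32 * k * (W.filter fun y => π y = π x).card < n).card ≤ k * n := by
  set R := W.filter fun x => 32 * k * (W.filter fun y => π y = π x).card < n with hR
  have h1 : R.card = ∑ j : Fin k, (R.filter fun x => π x = j).card :=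
    card_eq_sum_card_fiberwise fun x _ => mem_univ _
  have h2 : ∀ j : Fin k, 32 * k * (R.filter fun x => π x = j).card ≤ n := by
    intro j
    rcases (R.filter fun x => π x = j).eq_empty_or_nonempty with h | ⟨x, hx⟩
    · rw [h, card_empty, mul_zero]; exact Nat.zero_le _
    · rw [mem_filter] at hx
      have hx1 := hx.1
      rw [hR, mem_filter] at hx1
      refine le_trans (Nat.mul_le_mul_left _ (card_le_card ?_)) hx1.2.le
      intro y hy
      rw [mem_filter, hR, mem_filter] at hy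
      rw [mem_filter]
      exact ⟨hy.1.1, hy.2.trans hx.2.symm⟩
  calc 32 * k * R.card = ∑ j : Fin k, 32 * k * (R.filter fun x => π x = j).card := by
        rw [h1, mul_sum]
    _ ≤ ∑ _j : Fin k, n := sum_le_sum fun j _ => h2 j
    _ = k * n := by rw [sum_const, card_univ, Fintype.card_fin, smul_eq_mul]

theorem good_rank_of (hc : ∀ i j, 0 ≤ c i j) (hsym : ∀ i j, c i j = c j i)
    (hd : ∀ x y, 0 ≤ d x y) (hs : ∀ x y, d x y = d y x)
    (ht : ∀ x y z, d x z ≤ d x y + d y z) {A : Finset V}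
    (hA : Fintype.card V ≤ 3 * A.card) (hA2 : 3 * A.card ≤ 2 * Fintype.card V)
    {k : ℕ} {H : ℝ} (hH : 1 ≤ H) {ρ : ℝ} (hρ0 : 0 < ρ)
    (hcen : ∃ (F : V → ℝ) (p : Fin k → V), (∀ x, 0 ≤ F x) ∧ (∀ x y, F x - F y ≤ d x y) ∧
      (∀ x, F x < 2 * ρ → ∃ i, d x (p i) < 2 * ρ) ∧
      ∑ x ∈ A, ∑ y ∈ Aᶜ, c x y * min (F x) ρ ≤ H * ∑ x ∈ A, ∑ y ∈ Aᶜ, c x y * d x y)
    {τ : ℝ} (hτρ : τ = 4 * ρ) :
    phi c * (τ * (Fintype.card V : ℝ) ^ 2) ≤ 768 * H * ∑ x, ∑ y, c x y * d x y ∨
      ∃ Gd : Finset V, 15 * (Fintype.card V : ℝ) ≤ 16 * Gd.card ∧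
        ∀ x ∈ Gd, Fintype.card V ≤ 32 * k * (ball d x τ).card := by
  classical
  obtain ⟨F, p, hF0, hFd, hFp, hFout⟩ := hcen
  set Q := ∑ x, ∑ y, c x y * d x y with hQ
  have hQ0 : 0 ≤ Q := sum_nonneg fun x _ => sum_nonneg fun y _ => mul_nonneg (hc x y) (hd x y)
  set n := Fintype.card V with hn
  have hn0 : (0 : ℝ) < n := by
    have : 0 < n := Fintype.card_pos
    exact_mod_cast this
  have hphi := phi_nonneg hc
  have hHQ : Q ≤ H * Q := by nlinarith
  have hFlip : ∀ x y, |F x - F y| ≤ d x y := by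
    intro x y
    have h1 := hFd x y
    have h2 := hFd y x
    rw [hs y x] at h2
    rw [abs_le]
    constructor <;> linarith
  -- the first function
  set h : V → ℝ := fun x => if x ∈ A then min (F x) ρ else 0 with hh
  have hh0 : ∀ x, 0 ≤ h x := by
    intro x
    simp only [hh]
    split_ifs
    · exact le_min (hF0 x) hρ0.le
    · exact le_rfl
  have hen : ∑ x, ∑ y, c x y * |h x - h y| ≤ H * Q := by
    refine energy_bound hc hsym hd hs (A := A) hH hh0 (fun x hx => if_neg hx) ?_ ?_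
    · intro x hx y hy
      simp only [hh, if_pos hx, if_pos hy]
      exact (min_lip _ _ _).trans (hFlip x y)
    · refine le_trans (le_of_eq ?_) hFout
      refine sum_congr rfl fun x hx => sum_congr rfl fun y _ => ?_
      simp only [hh, if_pos hx]
  have hAr : (n : ℝ) ≤ 3 * A.card := by exact_mod_cast hA
  have hAr2 : 3 * (A.card : ℝ) ≤ 2 * n := by exact_mod_cast hA2
  have hAc : (Aᶜ.card : ℝ) = n - A.card := by
    rw [card_compl, Nat.cast_sub (card_le_univ A)]
  set P := A.filter fun a => ρ ≤ F a with hP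
  by_cases hcase1 : (n : ℝ) / 6 ≤ P.card
  · left
    have e1 : 2 * ((P.card : ℝ) * Aᶜ.card * ρ) ≤ ∑ x, ∑ y, |h x - h y| := by
      refine sum_abs_ge ?_ ?_
      · intro x hx y hy
        rw [hP, mem_filter] at hx
        have hy' := mem_compl.1 hy
        simp only [hh, if_pos hx.1, if_neg hy', sub_zero]
        exact le_min hx.2 le_rfl
      · refine disjoint_left.2 fun x hx hx2 => ?_
        exact (mem_compl.1 hx2) (mem_filter.1 hx).1
    have e2 := coarea hc hsym h
    have e3 : (n : ℝ) / 6 * (n / 3) ≤ (P.card : ℝ) * Aᶜ.card := by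
      refine mul_le_mul hcase1 ?_ (by positivity) (by positivity)
      rw [hAc]; linarith
    have e4 : phi c * (2 * ((n : ℝ) / 6 * (n / 3) * ρ)) ≤ H * Q := by
      refine le_trans (mul_le_mul_of_nonneg_left ?_ hphi) (e2.trans hen)
      refine le_trans ?_ e1
      have := mul_le_mul_of_nonneg_right e3 hρ0.le
      linarith
    rw [hτρ]
    have e5 : phi c * (4 * ρ * (n : ℝ) ^ 2) = 36 * (phi c * (2 * ((n : ℝ) / 6 * (n / 3) * ρ))) := by
      ring
    rw [e5]
    nlinarith
  · rw [not_le] at hcase1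
    -- the second function
    set g : V → ℝ := fun x => max 0 (min (F x - ρ) ρ) with hg
    have hglip : ∀ x y, |g x - g y| ≤ d x y := fun x y =>
      (trunc_lip _ _ _ _).trans (hFlip x y)
    set Lo := univ.filter fun x => F x < ρ with hLo
    set Hi := univ.filter fun x => 2 * ρ ≤ F x with hHi
    have hLoc : (n : ℝ) / 6 ≤ Lo.card := by
      have e1 : A.card ≤ P.card + Lo.card := by
        rw [← card_filter_add_card_filter_not (s := A) (fun a => ρ ≤ F a), ← hP]
        refine Nat.add_le_add_left (card_le_card ?_) _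
        intro x hx
        rw [mem_filter] at hx
        rw [hLo, mem_filter]
        exact ⟨mem_univ _, not_le.1 hx.2⟩
      have e2 : (A.card : ℝ) ≤ P.card + Lo.card := by exact_mod_cast e1
      linarith
    by_cases hcase2 : (n : ℝ) / 32 ≤ Hi.card
    · left
      have e1 : 2 * ((Hi.card : ℝ) * Lo.card * ρ) ≤ ∑ x, ∑ y, |g x - g y| := by
        refine sum_abs_ge ?_ ?_
        · intro x hx y hy
          rw [hHi, mem_filter] at hx
          rw [hLo, mem_filter] at hy
          have a1 : ρ ≤ g x := le_max_of_le_right (le_min (by linarith [hx.2]) le_rfl)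
          have a2 : g y ≤ 0 := max_le le_rfl ((min_le_left _ _).trans (by linarith [hy.2]))
          linarith
        · refine disjoint_left.2 fun x hx hx2 => ?_
          rw [hHi, mem_filter] at hx
          rw [hLo, mem_filter] at hx2
          linarith [hx.2, hx2.2]
      have e2 := lip_bound (c := c) (d := d) hc hsym hglip
      have e3 : (n : ℝ) / 32 * (n / 6) ≤ (Hi.card : ℝ) * Lo.card :=
        mul_le_mul hcase2 hLoc (by positivity) (by positivity)
      have e4 : phi c * (2 * ((n : ℝ) / 32 * (n / 6) * ρ)) ≤ Q := by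
        refine le_trans (mul_le_mul_of_nonneg_left ?_ hphi) e2
        refine le_trans ?_ e1
        have := mul_le_mul_of_nonneg_right e3 hρ0.le
        linarith
      rw [hτρ]
      have e5 : phi c * (4 * ρ * (n : ℝ) ^ 2) =
          384 * (phi c * (2 * ((n : ℝ) / 32 * (n / 6) * ρ))) := by
        ring
      rw [e5]
      nlinarith
    · right
      rw [not_le] at hcase2
      set W := univ.filter fun x => F x < 2 * ρ with hW
      have e4 : W.card + Hi.card = n := by
        rw [hn, ← card_univ, ← card_filter_add_card_filter_not (s := (univ : Finset V))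
          (fun x => F x < 2 * ρ)]
        congr 2
        rw [hHi]
        refine filter_congr fun x _ => ?_
        exact not_lt.symm
      have e4' : (W.card : ℝ) + Hi.card = n := by exact_mod_cast e4
      have hWne : W.Nonempty := by
        rw [← card_pos]
        have : (0 : ℝ) < W.card := by linarith
        exact_mod_cast this
      obtain ⟨x0, hx0⟩ := hWne
      obtain ⟨i0, -⟩ := hFp x0 (mem_filter.1 hx0).2
      have hk : 0 < k := (Nat.zero_le _).trans_lt i0.2
      have hex2 : ∀ x, ∃ i : Fin k, x ∈ W → d x (p i) < 2 * ρ := by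
        intro x
        by_cases hx : x ∈ W
        · obtain ⟨i, hi⟩ := hFp x (mem_filter.1 hx).2
          exact ⟨i, fun _ => hi⟩
        · exact ⟨i0, fun h => absurd h hx⟩
      choose π hπ using hex2
      refine ⟨W.filter fun x => ¬ (32 * k * (W.filter fun y => π y = π x).card < n), ?_, ?_⟩
      · have e1 := small_classes W π (n := n)
        have e2 : 32 * (W.filter fun x => 32 * k * (W.filter fun y => π y = π x).card < n).card
            ≤ n := by
          refine Nat.le_of_mul_le_mul_left ?_ hk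
          calc _ = 32 * k *
                (W.filter fun x => 32 * k * (W.filter fun y => π y = π x).card < n).card := by ring
            _ ≤ k * n := e1
        have e3 := card_filter_add_card_filter_not (s := W)
          (fun x => 32 * k * (W.filter fun y => π y = π x).card < n)
        set r1 := (W.filter fun x => 32 * k * (W.filter fun y => π y = π x).card < n).card
        set r2 := (W.filter fun x => ¬ (32 * k * (W.filter fun y => π y = π x).card < n)).card
        have e2' : 32 * (r1 : ℝ) ≤ n := by exact_mod_cast e2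
        have e3' : (r1 : ℝ) + r2 = W.card := by exact_mod_cast e3
        linarith
      · intro x hx
        rw [mem_filter] at hx
        have hx2 := not_lt.1 hx.2
        refine hx2.trans (Nat.mul_le_mul_left _ (card_le_card ?_))
        intro y hy
        rw [mem_filter] at hy
        rw [mem_ball, hτρ]
        have a1 := hπ x hx.1
        have a2 := hπ y hy.1
        rw [hy.2] at a2
        have a3 := ht x (p (π x)) y
        rw [hs (p (π x)) y] at a3
        linarith

/-- **Main lemma.** -/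
theorem good_rank (hc : ∀ i j, 0 ≤ c i j) (hsym : ∀ i j, c i j = c j i)
    (hd : ∀ x y, 0 ≤ d x y) (hs : ∀ x y, d x y = d y x)
    (ht : ∀ x y z, d x z ≤ d x y + d y z) {A : Finset V}
    (hA : Fintype.card V ≤ 3 * A.card) (hA2 : 3 * A.card ≤ 2 * Fintype.card V)
    {k : ℕ} {H : ℝ} (hH : 1 ≤ H) (hr : Ranked c k H A) {τ : ℝ} (hτ : 0 < τ) :
    phi c * (τ * (Fintype.card V : ℝ) ^ 2) ≤ 768 * H * ∑ x, ∑ y, c x y * d x y ∨
      ∃ Gd : Finset V, 15 * (Fintype.card V : ℝ) ≤ 16 * Gd.card ∧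
        ∀ x ∈ Gd, Fintype.card V ≤ 32 * k * (ball d x τ).card := by
  have hρ : 0 < τ / 4 := by positivity
  exact good_rank_of hc hsym hd hs ht hA hA2 hH hρ
    (Vale.Agent.P318.R2.H821.centres hd hs ht hH hr hρ) (by ring)

end Vale.Agent.P318.R2.H305
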