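import Mathlib

/-!
# Separated families of sets of bounded VC dimension
-/

open Finset

namespace Vale.Agent.P318.R2.H305

lemma exists_points {Y : Type*} [Fintype Y] [DecidableEq Y] [Nonempty Y] {k t : ℕ} {e : ℝ}
    (R : Fin k → Finset Y)
    (hsep : ∀ i j, i ≠ j → e * Fintype.card Y ≤ ((symmDiff (R i) (R j)).card : ℝ))
    (ht : (k : ℝ) ^ 2 * (1 - e) ^ t < 1) :
    ∃ y : Fin t → Y, ∀ i j, i ≠ j → ∃ s, y s ∈ symmDiff (R i) (R j) := by
  by_contra hcon
  push Not at hcon
  have hN : (0 : ℝ) < Fintype.card Y := by exact_mod_cast Fintype.card_pos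
  set B : Fin k × Fin k → Finset (Fin t → Y) :=
    fun p => Fintype.piFinset fun _ => (symmDiff (R p.1) (R p.2))ᶜ with hB
  have h1 : (univ : Finset (Fin t → Y)) ⊆ (univ : Finset (Fin k)).offDiag.biUnion B := by
    intro y _
    obtain ⟨i, j, hij, h⟩ := hcon y
    rw [mem_biUnion]
    exact ⟨(i, j), by simpa using hij, Fintype.mem_piFinset.2 fun s => mem_compl.2 (h s)⟩
  have h2 : ((Fintype.card Y : ℝ)) ^ t ≤
      ∑ p ∈ (univ : Finset (Fin k)).offDiag, ((1 - e) * Fintype.card Y) ^ t := by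
    have h3 : (univ : Finset (Fin t → Y)).card ≤
        ∑ p ∈ (univ : Finset (Fin k)).offDiag, (B p).card :=
      (card_le_card h1).trans card_biUnion_le
    have h4 : (univ : Finset (Fin t → Y)).card = Fintype.card Y ^ t := by
      rw [card_univ, Fintype.card_fun, Fintype.card_fin]
    rw [h4] at h3
    have h5 : ((Fintype.card Y ^ t : ℕ) : ℝ) ≤
        ((∑ p ∈ (univ : Finset (Fin k)).offDiag, (B p).card : ℕ) : ℝ) := by exact_mod_cast h3
    push_cast at h5
    refine h5.trans (sum_le_sum fun p hp => ?_)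
    have hp' : p.1 ≠ p.2 := (mem_offDiag.1 hp).2.2
    have h6 : (B p).card = ((symmDiff (R p.1) (R p.2))ᶜ).card ^ t := by
      rw [hB, Fintype.card_piFinset]
      simp
    rw [h6]
    push_cast
    refine pow_le_pow_left₀ (Nat.cast_nonneg _) ?_ t
    have h7 : ((symmDiff (R p.1) (R p.2))ᶜ).card + (symmDiff (R p.1) (R p.2)).card =
        Fintype.card Y := card_compl_add_card _
    have h8 : (((symmDiff (R p.1) (R p.2))ᶜ).card : ℝ) + ((symmDiff (R p.1) (R p.2)).card : ℝ) =
        Fintype.card Y := by exact_mod_cast h7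
    have h9 := hsep _ _ hp'
    linarith
  rw [sum_const, nsmul_eq_mul, mul_pow] at h2
  have h10 : (((univ : Finset (Fin k)).offDiag.card : ℕ) : ℝ) ≤ (k : ℝ) ^ 2 := by
    have : (univ : Finset (Fin k)).offDiag.card ≤ k ^ 2 := by
      rw [offDiag_card, card_univ, Fintype.card_fin, sq]
      exact Nat.sub_le _ _
    exact_mod_cast this
  have hNt : (0 : ℝ) < (Fintype.card Y : ℝ) ^ t := by positivity
  rcases Nat.eq_zero_or_pos (univ : Finset (Fin k)).offDiag.card with h0 | h0
  · rw [h0] at h2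
    simp only [Nat.cast_zero, zero_mul] at h2
    linarith
  · -- some pair exists, so `e ≤ 1`
    obtain ⟨p, hp⟩ := card_pos.1 h0
    have hp' : p.1 ≠ p.2 := (mem_offDiag.1 hp).2.2
    have h9 := hsep _ _ hp'
    have h11 : ((symmDiff (R p.1) (R p.2)).card : ℝ) ≤ Fintype.card Y := by
      exact_mod_cast card_le_univ _
    have he1 : e ≤ 1 := by
      have h12 : e * Fintype.card Y ≤ 1 * Fintype.card Y := by linarith
      exact le_of_mul_le_mul_right h12 hN
    have h13 : (0 : ℝ) ≤ (1 - e) ^ t := pow_nonneg (by linarith) t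
    have h14 : (Fintype.card Y : ℝ) ^ t * 1 ≤
        (Fintype.card Y : ℝ) ^ t * ((k : ℝ) ^ 2 * (1 - e) ^ t) := by
      calc (Fintype.card Y : ℝ) ^ t * 1 ≤ ((univ : Finset (Fin k)).offDiag.card : ℝ) *
            ((1 - e) ^ t * (Fintype.card Y : ℝ) ^ t) := by rw [mul_one]; exact h2
        _ ≤ (k : ℝ) ^ 2 * ((1 - e) ^ t * (Fintype.card Y : ℝ) ^ t) :=
            mul_le_mul_of_nonneg_right h10 (by positivity)
        _ = _ := by ring
    have h15 := le_of_mul_le_mul_left h14 hNt
    linarith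

/-- the number of subsets of size at most `D` of a set with at most `t` elements -/
lemma sum_choose_le (t D : ℕ) : ∑ j ∈ range (D + 1), t.choose j ≤ (t + 1) ^ D := by
  induction D with
  | zero => simp
  | succ D ih =>
    rw [sum_range_succ, pow_succ]
    have h1 : t.choose (D + 1) ≤ t * (t + 1) ^ D := by
      calc t.choose (D + 1) ≤ t ^ (D + 1) := Nat.choose_le_pow t (D + 1)
        _ = t * t ^ D := by ring
        _ ≤ t * (t + 1) ^ D := Nat.mul_le_mul_left _ (Nat.pow_le_pow_left (Nat.le_succ t) D)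
    calc _ ≤ (t + 1) ^ D + t * (t + 1) ^ D := Nat.add_le_add ih h1
      _ = _ := by ring

/-- Haussler type packing (the simple form) -/
theorem packing {Y : Type*} [Fintype Y] [DecidableEq Y] [Nonempty Y] {k D t : ℕ} {e : ℝ}
    (R : Fin k → Finset Y)
    (hsep : ∀ i j, i ≠ j → e * Fintype.card Y ≤ ((symmDiff (R i) (R j)).card : ℝ))
    (hvc : ∀ S : Finset Y, (∀ T ⊆ S, ∃ i, R i ∩ S = T) → S.card ≤ D)
    (ht : (k : ℝ) ^ 2 * (1 - e) ^ t < 1) : k ≤ (t + 1) ^ D := by
  obtain ⟨y, hy⟩ := exists_points R hsep ht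
  set S : Finset Y := univ.image y with hS
  have hSt : S.card ≤ t := by
    refine card_image_le.trans ?_
    simp
  set 𝒜 : Finset (Finset Y) := univ.image fun i : Fin k => R i ∩ S with h𝒜
  have hcard : 𝒜.card = k := by
    rw [h𝒜, card_image_of_injective, card_univ, Fintype.card_fin]
    intro i j hij
    by_contra hne
    obtain ⟨s, hs⟩ := hy i j hne
    have hsS : y s ∈ S := mem_image_of_mem y (mem_univ s)
    have h1 : y s ∈ R i ∩ S ↔ y s ∈ R j ∩ S := by
      have : R i ∩ S = R j ∩ S := hij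
      rw [this]
    simp only [mem_inter, hsS, and_true] at h1
    rw [mem_symmDiff] at hs
    tauto
  have h2 : 𝒜.shatterer ⊆ (range (D + 1)).biUnion fun j => S.powersetCard j := by
    intro U hU
    rw [mem_shatterer] at hU
    have hUS : U ⊆ S := by
      obtain ⟨A, hA, hUA⟩ := hU (Subset.refl U)
      obtain ⟨i, _, rfl⟩ := mem_image.1 hA
      intro x hx
      rw [← hUA] at hx
      exact (mem_inter.1 (mem_inter.1 hx).2).2
    have hUD : U.card ≤ D := by
      refine hvc U fun T hT => ?_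
      obtain ⟨A, hA, hUA⟩ := hU hT
      obtain ⟨i, _, rfl⟩ := mem_image.1 hA
      refine ⟨i, ?_⟩
      rw [← hUA]
      ext x
      simp only [mem_inter]
      exact ⟨fun h => ⟨h.2, h.1, hUS h.2⟩, fun h => ⟨h.2.1, h.1⟩⟩
    rw [mem_biUnion]
    exact ⟨U.card, mem_range.2 (Nat.lt_succ_of_le hUD), mem_powersetCard.2 ⟨hUS, rfl⟩⟩
  calc k = 𝒜.card := hcard.symm
    _ ≤ 𝒜.shatterer.card := card_le_card_shatterer 𝒜
    _ ≤ ∑ j ∈ range (D + 1), (S.powersetCard j).card := (card_le_card h2).trans card_biUnion_le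
    _ = ∑ j ∈ range (D + 1), S.card.choose j := by simp_rw [card_powersetCard]
    _ ≤ ∑ j ∈ range (D + 1), t.choose j :=
        sum_le_sum fun j _ => Nat.choose_le_choose j hSt
    _ ≤ (t + 1) ^ D := sum_choose_le t D

/-- the logarithm of the size of a separated family -/
theorem packing_log {Y : Type*} [Fintype Y] [DecidableEq Y] [Nonempty Y] {k D : ℕ} {e : ℝ}
    (he0 : 0 < e) (he1 : e ≤ 1) (R : Fin k → Finset Y)
    (hsep : ∀ i j, i ≠ j → e * Fintype.card Y ≤ ((symmDiff (R i) (R j)).card : ℝ))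
    (hvc : ∀ S : Finset Y, (∀ T ⊆ S, ∃ i, R i ∩ S = T) → S.card ≤ D) :
    Real.log k ≤ 4 * D * Real.log (2 + D / e) := by
  have hD0 : (0 : ℝ) ≤ D := Nat.cast_nonneg D
  have hlog2 := Real.log_two_gt_d9
  have hlogpos : 0 ≤ Real.log (2 + D / e) := by
    refine Real.log_nonneg ?_
    have : 0 ≤ (D : ℝ) / e := by positivity
    linarith
  rcases Nat.eq_zero_or_pos k with rfl | hk
  · simp only [Nat.cast_zero, Real.log_zero]
    positivity
  have hk1 : (1 : ℝ) ≤ k := by exact_mod_cast hk
  set L : ℝ := Real.log k with hL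
  have hL0 : 0 ≤ L := Real.log_nonneg hk1
  set t : ℕ := ⌊2 * L / e⌋₊ + 1 with ht
  have h1 : 2 * L / e < t := by
    rw [ht]
    push_cast
    exact Nat.lt_floor_add_one _
  have h2 : (t : ℝ) ≤ 2 * L / e + 1 := by
    rw [ht]
    push_cast
    have := Nat.floor_le (show 0 ≤ 2 * L / e by positivity)
    linarith
  have h3 : (k : ℝ) ^ 2 * (1 - e) ^ t < 1 := by
    have h4 : (1 - e) ^ t ≤ Real.exp (-e * t) := by
      calc (1 - e) ^ t ≤ (Real.exp (-e)) ^ t :=
            pow_le_pow_left₀ (by linarith) (by linarith [Real.add_one_le_exp (-e)]) t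
        _ = Real.exp (-e * t) := by rw [← Real.exp_nat_mul]; congr 1; ring
    have h5 : (k : ℝ) ^ 2 = Real.exp (2 * L) := by
      rw [two_mul, Real.exp_add, hL, Real.exp_log (by linarith)]
      ring
    calc (k : ℝ) ^ 2 * (1 - e) ^ t ≤ Real.exp (2 * L) * Real.exp (-e * t) := by
          rw [h5]; exact mul_le_mul_of_nonneg_left h4 (Real.exp_pos _).le
      _ = Real.exp (2 * L - e * t) := by rw [← Real.exp_add]; congr 1; ring
      _ < 1 := by
          rw [Real.exp_lt_one_iff]
          have h6 : 2 * L < t * e := (div_lt_iff₀ he0).1 h1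
          linarith
  have h7 := packing R hsep hvc h3
  rcases Nat.eq_zero_or_pos D with hD | hD
  · rw [hD, pow_zero] at h7
    have hk' : (k : ℝ) = 1 := le_antisymm (by exact_mod_cast h7) hk1
    rw [hL, hk', Real.log_one]
    positivity
  have hD1 : (0 : ℝ) < D := by exact_mod_cast hD
  have h8 : L ≤ D * Real.log (2 + 2 * L / e) := by
    have h9 : (k : ℝ) ≤ (2 + 2 * L / e) ^ D := by
      have h10 : (k : ℝ) ≤ ((t : ℝ) + 1) ^ D := by exact_mod_cast h7
      exact h10.trans (pow_le_pow_left₀ (by positivity) (by linarith) D)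
    have h11 := Real.log_le_log (by linarith) h9
    rw [Real.log_pow] at h11
    exact h11
  set M : ℝ := L / D with hM
  have hM0 : 0 ≤ M := by positivity
  have hLM : L = D * M := by rw [hM]; field_simp
  have h12 : M ≤ Real.log (2 + 2 * L / e) := by
    rw [hM, div_le_iff₀ hD1]
    linarith
  have h13 : 2 + 2 * L / e ≤ (2 + D / e) * (1 + 2 * M) := by
    have h14 : 0 ≤ (D : ℝ) / e := by positivity
    have h15 : 2 * L / e = 2 * M * (D / e) := by rw [hLM]; ring
    rw [h15]
    nlinarith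
  have h16 : Real.log (2 + 2 * L / e) ≤ Real.log (2 + D / e) + Real.log (1 + 2 * M) := by
    rw [← Real.log_mul (by positivity) (by positivity)]
    exact Real.log_le_log (by positivity) h13
  have h17 : Real.log (1 + 2 * M) ≤ 2 * Real.log 2 + ((1 + 2 * M) / 4 - 1) := by
    have h18 := Real.log_le_sub_one_of_pos (show 0 < (1 + 2 * M) / 4 by positivity)
    rw [Real.log_div (by positivity) (by norm_num)] at h18
    have h19 : Real.log 4 = 2 * Real.log 2 := by
      rw [show (4 : ℝ) = 2 ^ 2 by norm_num, Real.log_pow]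
      norm_num
    linarith
  have h20 := Real.log_two_lt_d9
  have h21 : Real.log 2 ≤ Real.log (2 + D / e) :=
    Real.log_le_log (by norm_num) (by have : 0 ≤ (D : ℝ) / e := by positivity
                                      linarith)
  have h22 : M ≤ 4 * Real.log (2 + D / e) := by linarith
  rw [hLM]
  nlinarith

/-- the same with the logarithm in base two -/
theorem packing_log_two {Y : Type*} [Fintype Y] [DecidableEq Y] [Nonempty Y] {k D : ℕ} {e : ℝ}
    (he0 : 0 < e) (he1 : e ≤ 1) (R : Fin k → Finset Y)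
    (hsep : ∀ i j, i ≠ j → e * Fintype.card Y ≤ ((symmDiff (R i) (R j)).card : ℝ))
    (hvc : ∀ S : Finset Y, (∀ T ⊆ S, ∃ i, R i ∩ S = T) → S.card ≤ D) :
    (Nat.log 2 k : ℝ) ≤ 6 * D * Real.log (2 + D / e) := by
  have h1 := packing_log he0 he1 R hsep hvc
  have hlog2 := Real.log_two_gt_d9
  have hD0 : (0 : ℝ) ≤ D := Nat.cast_nonneg D
  have hlogpos : 0 ≤ Real.log (2 + D / e) := by
    refine Real.log_nonneg ?_
    have : 0 ≤ (D : ℝ) / e := by positivity
    linarith
  rcases Nat.eq_zero_or_pos k with rfl | hk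
  · simp only [Nat.log_zero_right, Nat.cast_zero]
    positivity
  have h2 : (2 : ℝ) ^ Nat.log 2 k ≤ k := by exact_mod_cast Nat.pow_log_le_self 2 hk.ne'
  have h3 := Real.log_le_log (by positivity) h2
  rw [Real.log_pow] at h3
  have h4 : (0 : ℝ) ≤ Nat.log 2 k := Nat.cast_nonneg _
  have h5 : 0 ≤ D * Real.log (2 + D / e) := by positivity
  nlinarith

end Vale.Agent.P318.R2.H305
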