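import Mathlib

/-!
# Splitting along the low eigenvectors of the Laplacian
-/

open Finset

namespace Vale.Agent.P318.R2.H305

variable {V : Type*} [Fintype V] [DecidableEq V] {c : V → V → ℝ}

/-- the Laplacian of the capacities -/
def lap (c : V → V → ℝ) : Matrix V V ℝ :=
  Matrix.of fun x y => (if x = y then ∑ z, c x z else 0) - c x y

/-- the number of eigenvalues of the Laplacian below `μ` -/
noncomputable def lowCount (c : V → V → ℝ) (μ : ℝ) : ℕ := by
  classical
  exact if h : (lap c).IsHermitian then (univ.filter fun i => h.eigenvalues i < μ).card else 0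

lemma lap_apply (x y : V) : lap c x y = (if x = y then ∑ z, c x z else 0) - c x y := rfl

lemma lap_herm (hsym : ∀ i j, c i j = c j i) : (lap c).IsHermitian := by
  refine Matrix.IsHermitian.ext fun i j => ?_
  rw [lap_apply, lap_apply]
  by_cases h : i = j
  · subst h
    simp
  · rw [if_neg h, if_neg (fun h' => h h'.symm), hsym i j]
    simp

/-- the quadratic form of the Laplacian -/
lemma lap_quad (hsym : ∀ i j, c i j = c j i) {W : Type*} [NormedAddCommGroup W]
    [InnerProductSpace ℝ W] (f : V → W) :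
    2 * ∑ x, ∑ y, lap c x y * inner ℝ (f x) (f y) = ∑ x, ∑ y, c x y * ‖f x - f y‖ ^ 2 := by
  have h1 : ∑ x, ∑ y, lap c x y * inner ℝ (f x) (f y) =
      ∑ x, ∑ y, c x y * ‖f x‖ ^ 2 - ∑ x, ∑ y, c x y * inner ℝ (f x) (f y) := by
    rw [← sum_sub_distrib]
    refine sum_congr rfl fun x _ => ?_
    simp_rw [lap_apply, sub_mul, ite_mul, zero_mul]
    rw [sum_sub_distrib]
    congr 1
    rw [sum_ite_eq, if_pos (mem_univ x), sum_mul, real_inner_self_eq_norm_sq]
  have h2 : ∑ x, ∑ y, c x y * ‖f x - f y‖ ^ 2 =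
      ∑ x, ∑ y, c x y * ‖f x‖ ^ 2 - 2 * ∑ x, ∑ y, c x y * inner ℝ (f x) (f y) +
        ∑ x, ∑ y, c x y * ‖f y‖ ^ 2 := by
    rw [mul_sum, ← sum_sub_distrib, ← sum_add_distrib]
    refine sum_congr rfl fun x _ => ?_
    rw [mul_sum, ← sum_sub_distrib, ← sum_add_distrib]
    refine sum_congr rfl fun y _ => ?_
    rw [norm_sub_sq_real]
    ring
  have h3 : ∑ x, ∑ y, c x y * ‖f y‖ ^ 2 = ∑ x, ∑ y, c x y * ‖f x‖ ^ 2 := by
    rw [sum_comm]
    exact sum_congr rfl fun x _ => sum_congr rfl fun y _ => by rw [hsym y x]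
  rw [h1, h2, h3]
  ring

section eig

variable (h : (lap c).IsHermitian)

/-- eigenvectors as functions -/
noncomputable def ev (i x : V) : ℝ := h.eigenvectorBasis i x

lemma ev_orth (i j : V) : ∑ x, ev h i x * ev h j x = if i = j then 1 else 0 := by
  have h1 := (orthonormal_iff_ite.1 h.eigenvectorBasis.orthonormal) i j
  rw [← h1, PiLp.inner_apply]
  refine sum_congr rfl fun x _ => ?_
  simp only [ev]
  rw [RCLike.inner_apply]
  simp [mul_comm]

lemma ev_complete (x y : V) : ∑ i, ev h i x * ev h i y = if x = y then 1 else 0 := by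
  have h1 := h.eigenvectorBasis.sum_repr' (EuclideanSpace.single x (1 : ℝ))
  have h2 := congrArg (fun v : EuclideanSpace ℝ V => v y) h1
  simp only [EuclideanSpace.inner_single_right, one_mul] at h2
  rw [WithLp.ofLp_sum] at h2
  simp only [Finset.sum_apply, WithLp.ofLp_smul, Pi.smul_apply, smul_eq_mul,
    conj_trivial] at h2
  have h3 : ∑ i, ev h i x * ev h i y = (EuclideanSpace.single x (1 : ℝ)).ofLp y := by
    rw [← h2]
    rfl
  rw [h3, PiLp.single_apply]
  simp [eq_comm]

lemma ev_eig (i x : V) : ∑ y, lap c x y * ev h i y = h.eigenvalues i * ev h i x := by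
  have h1 := h.mulVec_eigenvectorBasis i
  have h2 := congrFun h1 x
  simpa [Matrix.mulVec, dotProduct, ev] using h2

lemma ev_spec (x y : V) : ∑ i, h.eigenvalues i * (ev h i x * ev h i y) = lap c x y := by
  have h1 : ∀ i, h.eigenvalues i * (ev h i x * ev h i y) =
      ∑ z, lap c x z * (ev h i z * ev h i y) := by
    intro i
    rw [← mul_assoc, ← ev_eig, sum_mul]
    exact sum_congr rfl fun z _ => by ring
  simp_rw [h1]
  rw [sum_comm]
  simp_rw [← mul_sum, ev_complete]
  simp

variable {W : Type*} [NormedAddCommGroup W] [InnerProductSpace ℝ W]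

/-- the coefficient of `X` at the `i`-th eigenvector -/
noncomputable def cf (X : V → W) (i : V) : W := ∑ z, ev h i z • X z

lemma sum_cf (X : V → W) (x : V) : ∑ i, ev h i x • cf h X i = X x := by
  unfold cf
  simp_rw [smul_sum, smul_smul]
  rw [sum_comm]
  simp_rw [← sum_smul, ev_complete]
  simp

lemma norm_sum_ev (s : Finset V) (Z : V → W) :
    ∑ x, ‖∑ i ∈ s, ev h i x • Z i‖ ^ 2 = ∑ i ∈ s, ‖Z i‖ ^ 2 := by
  have h1 : ∀ x, ‖∑ i ∈ s, ev h i x • Z i‖ ^ 2 =
      ∑ i ∈ s, ∑ j ∈ s, (ev h i x * ev h j x) * inner ℝ (Z i) (Z j) := by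
    intro x
    rw [← real_inner_self_eq_norm_sq, sum_inner]
    refine sum_congr rfl fun i _ => ?_
    rw [inner_sum]
    refine sum_congr rfl fun j _ => ?_
    rw [real_inner_smul_left, real_inner_smul_right]
    ring
  simp_rw [h1]
  rw [sum_comm]
  refine sum_congr rfl fun i hi => ?_
  rw [sum_comm]
  simp_rw [← sum_mul, ev_orth]
  rw [sum_eq_single_of_mem i hi]
  · rw [if_pos rfl, one_mul, real_inner_self_eq_norm_sq]
  · intro j _ hj
    rw [if_neg (fun h' => hj h'.symm), zero_mul]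

lemma eig_quad (X : V → W) :
    ∑ i, h.eigenvalues i * ‖cf h X i‖ ^ 2 = ∑ x, ∑ y, lap c x y * inner ℝ (X x) (X y) := by
  have h1 : ∀ i, h.eigenvalues i * ‖cf h X i‖ ^ 2 =
      ∑ x, ∑ y, h.eigenvalues i * (ev h i x * ev h i y) * inner ℝ (X x) (X y) := by
    intro i
    unfold cf
    rw [← real_inner_self_eq_norm_sq, sum_inner, mul_sum]
    refine sum_congr rfl fun x _ => ?_
    rw [inner_sum, mul_sum]
    refine sum_congr rfl fun y _ => ?_
    rw [real_inner_smul_left, real_inner_smul_right]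
    ring
  simp_rw [h1]
  rw [sum_comm]
  refine sum_congr rfl fun x _ => ?_
  rw [sum_comm]
  refine sum_congr rfl fun y _ => ?_
  rw [← sum_mul, ev_spec]

lemma eig_nonneg (hc : ∀ i j, 0 ≤ c i j) (hsym : ∀ i j, c i j = c j i) (i : V) :
    0 ≤ h.eigenvalues i := by
  have h1 := lap_quad hsym (fun x => ev h i x)
  have h2 : ∑ x, ∑ y, lap c x y * inner ℝ (ev h i x) (ev h i y) = h.eigenvalues i := by
    have h3 : ∀ x, ∑ y, lap c x y * inner ℝ (ev h i x) (ev h i y) =
        h.eigenvalues i * (ev h i x * ev h i x) := by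
      intro x
      have h4 : ∀ y, lap c x y * inner ℝ (ev h i x) (ev h i y) =
          ev h i x * (lap c x y * ev h i y) := by
        intro y
        rw [RCLike.inner_apply]
        simp
        ring
      simp_rw [h4]
      rw [← mul_sum, ev_eig]
      ring
    simp_rw [h3]
    rw [← mul_sum, ev_orth]
    simp
  rw [h2] at h1
  have h5 : 0 ≤ ∑ x, ∑ y, c x y * ‖ev h i x - ev h i y‖ ^ 2 :=
    sum_nonneg fun x _ => sum_nonneg fun y _ => mul_nonneg (hc x y) (by positivity)
  linarith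

end eig

theorem spectral_split (hc : ∀ i j, 0 ≤ c i j) (hsym : ∀ i j, c i j = c j i) {μ : ℝ}
    (hμ : 0 < μ) {r : ℕ} (hr : lowCount c μ ≤ r) (X : V → EuclideanSpace ℝ V) :
    ∃ Y : V → EuclideanSpace ℝ V,
      Module.finrank ℝ (Submodule.span ℝ (Set.range Y)) ≤ r ∧
      ∑ x, ‖X x - Y x‖ ^ 2 ≤ (∑ x, ∑ y, c x y * ‖X x - X y‖ ^ 2) / (2 * μ) ∧
      ∑ x, ‖Y x‖ ^ 2 ≤ ∑ x, ‖X x‖ ^ 2 := by
  classical
  have h := lap_herm hsym
  set low : Finset V := univ.filter fun i => h.eigenvalues i < μ with hlow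
  have hcard : low.card ≤ r := by
    unfold lowCount at hr
    rw [dif_pos h] at hr
    exact hr
  set Y : V → EuclideanSpace ℝ V := fun x => ∑ i ∈ low, ev h i x • cf h X i with hY
  have hXY : ∀ x, X x - Y x = ∑ i ∈ lowᶜ, ev h i x • cf h X i := by
    intro x
    rw [← sum_cf h X x, ← sum_add_sum_compl low, hY]
    simp
  refine ⟨Y, ?_, ?_, ?_⟩
  · have h1 : Submodule.span ℝ (Set.range Y) ≤
        Submodule.span ℝ ((low.image (cf h X) : Finset (EuclideanSpace ℝ V)) : Set _) := by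
      rw [Submodule.span_le]
      rintro _ ⟨x, rfl⟩
      refine Submodule.sum_mem _ fun i hi => Submodule.smul_mem _ _ (Submodule.subset_span ?_)
      exact mem_coe.2 (mem_image_of_mem _ hi)
    refine (Submodule.finrank_mono h1).trans ?_
    exact (finrank_span_finset_le_card _).trans (card_image_le.trans hcard)
  · simp_rw [hXY]
    rw [norm_sum_ev, ← lap_quad hsym, ← eig_quad h]
    have h1 : μ * ∑ i ∈ lowᶜ, ‖cf h X i‖ ^ 2 ≤ ∑ i, h.eigenvalues i * ‖cf h X i‖ ^ 2 := by
      rw [mul_sum]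
      refine (sum_le_sum fun i hi => ?_).trans
        (sum_le_sum_of_subset_of_nonneg (subset_univ lowᶜ) fun i _ _ =>
          mul_nonneg (eig_nonneg h hc hsym i) (by positivity))
      have h2 : μ ≤ h.eigenvalues i := by
        by_contra hcon
        exact (mem_compl.1 hi) (mem_filter.2 ⟨mem_univ i, not_le.1 hcon⟩)
      gcongr
    rw [le_div_iff₀ (by positivity)]
    linarith
  · rw [hY]
    simp only
    rw [norm_sum_ev]
    calc ∑ i ∈ low, ‖cf h X i‖ ^ 2 ≤ ∑ i, ‖cf h X i‖ ^ 2 :=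
          sum_le_sum_of_subset_of_nonneg (subset_univ _) fun i _ _ => by positivity
      _ = ∑ x, ‖∑ i, ev h i x • cf h X i‖ ^ 2 := (norm_sum_ev h univ _).symm
      _ = ∑ x, ‖X x‖ ^ 2 := by simp_rw [sum_cf]

end Vale.Agent.P318.R2.H305
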