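import Vale.Agent.P318.H724.Walk

/-!
# The capacities `2 D W ^ t` of the lazy walk
-/

open Finset

namespace Vale.Agent.P318.R2.H305

open Vale.Agent.P318.H867 Vale.Agent.P318.H724

variable {V : Type*} [Fintype V] [DecidableEq V] {c d : V → V → ℝ} {D : ℝ}

/-- the capacities of `t` steps of the lazy walk -/
noncomputable def walkCap (c : V → V → ℝ) (D : ℝ) (t : ℕ) (x y : V) : ℝ :=
  2 * D * (lazyWalk c D ^ t) x y

theorem walkCap_nonneg (hc : ∀ i j, 0 ≤ c i j) (hsym : ∀ i j, c i j = c j i)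
    (hdiag : ∀ i, c i i = 0) (hD : 0 < D) (hdeg : ∀ i, ∑ j, c i j ≤ D) (t : ℕ) (x y : V) :
    0 ≤ walkCap c D t x y :=
  mul_nonneg (by positivity) (((lazy_sto hc hsym hdiag hD hdeg).pow t).nn x y)

theorem walkCap_symm (hc : ∀ i j, 0 ≤ c i j) (hsym : ∀ i j, c i j = c j i)
    (hdiag : ∀ i, c i i = 0) (hD : 0 < D) (hdeg : ∀ i, ∑ j, c i j ≤ D) (t : ℕ) (x y : V) :
    walkCap c D t x y = walkCap c D t y x := by
  unfold walkCap
  rw [((lazy_sto hc hsym hdiag hD hdeg).pow t).sy x y]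

theorem walkCap_sum (c : V → V → ℝ) (D : ℝ) (t : ℕ) (x : V) (S : Finset V) :
    ∑ y ∈ S, walkCap c D t x y = 2 * D * ∑ y ∈ S, (lazyWalk c D ^ t) x y := by
  unfold walkCap
  rw [mul_sum]

theorem walkCap_row (hc : ∀ i j, 0 ≤ c i j) (hsym : ∀ i j, c i j = c j i)
    (hdiag : ∀ i, c i i = 0) (hD : 0 < D) (hdeg : ∀ i, ∑ j, c i j ≤ D) (t : ℕ) (x : V) :
    ∑ y, walkCap c D t x y = 2 * D := by
  rw [walkCap_sum, ((lazy_sto hc hsym hdiag hD hdeg).pow t).row x, mul_one]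

theorem walkCap_row_ge (hc : ∀ i j, 0 ≤ c i j) (hsym : ∀ i j, c i j = c j i)
    (hdiag : ∀ i, c i i = 0) (hD : 0 < D) (hdeg : ∀ i, ∑ j, c i j ≤ D) (t : ℕ) (x : V) :
    ∑ y, c x y ≤ ∑ y, walkCap c D t x y := by
  rw [walkCap_row hc hsym hdiag hD hdeg]
  linarith [hdeg x]

/-- transport: `H = t` -/
theorem walkCap_transport (hc : ∀ i j, 0 ≤ c i j) (hsym : ∀ i j, c i j = c j i)
    (hdiag : ∀ i, c i i = 0) (hD : 0 < D) (hdeg : ∀ i, ∑ j, c i j ≤ D)
    (hd0 : ∀ x, d x x = 0) (ht : ∀ x y z, d x z ≤ d x y + d y z) (t : ℕ) :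
    ∑ x, ∑ y, walkCap c D t x y * d x y ≤ t * ∑ x, ∑ y, c x y * d x y := by
  have h1 := transport (lazy_sto hc hsym hdiag hD hdeg) hd0 ht t
  rw [lazy_energy hd0] at h1
  have h2 : ∑ x, ∑ y, walkCap c D t x y * d x y =
      2 * D * ∑ x, ∑ y, (lazyWalk c D ^ t) x y * d x y := by
    unfold walkCap
    simp_rw [mul_sum, mul_assoc]
  rw [h2]
  have h3 := mul_le_mul_of_nonneg_left h1 (by positivity : (0 : ℝ) ≤ 2 * D)
  refine h3.trans (le_of_eq ?_)
  field_simp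

/-- the spread condition in terms of the walk -/
theorem walkCap_spread (hc : ∀ i j, 0 ≤ c i j) (hsym : ∀ i j, c i j = c j i)
    (hdiag : ∀ i, c i i = 0) (hD : 0 < D) (hdeg : ∀ i, ∑ j, c i j ≤ D) (t : ℕ) (x : V)
    (S : Finset V) :
    3 * ∑ y, walkCap c D t x y ≤ 4 * ∑ y ∈ S, walkCap c D t x y ↔
      3 ≤ 4 * ∑ y ∈ S, (lazyWalk c D ^ t) x y := by
  rw [walkCap_row hc hsym hdiag hD hdeg, walkCap_sum]
  constructor
  · intro h
    have h1 : 2 * D * 3 ≤ 2 * D * (4 * ∑ y ∈ S, (lazyWalk c D ^ t) x y) := by linarith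
    exact le_of_mul_le_mul_left h1 (by positivity)
  · intro h
    have h1 := mul_le_mul_of_nonneg_left h (by positivity : (0 : ℝ) ≤ 2 * D)
    linarith

/-- the row is positive (so the spread condition is not empty) -/
theorem walkCap_row_pos (hc : ∀ i j, 0 ≤ c i j) (hsym : ∀ i j, c i j = c j i)
    (hdiag : ∀ i, c i i = 0) (hD : 0 < D) (hdeg : ∀ i, ∑ j, c i j ≤ D) (t : ℕ) (x : V) :
    0 < ∑ y, walkCap c D t x y := by
  rw [walkCap_row hc hsym hdiag hD hdeg]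
  positivity

/-- the cuts of the even powers dominate the cuts of `c` -/
theorem walkCap_cut (hc : ∀ i j, 0 ≤ c i j) (hsym : ∀ i j, c i j = c j i)
    (hdiag : ∀ i, c i i = 0) (hD : 0 < D) (hdeg : ∀ i, ∑ j, c i j ≤ D) {s : ℕ} (hs : 1 ≤ s)
    (S : Finset V) : cutCap c S ≤ cutCap (walkCap c D (2 * s)) S := by
  obtain ⟨s, rfl⟩ : ∃ s', s = s' + 1 := ⟨s - 1, by omega⟩
  have h1 := lazy_cut hc hsym hdiag hD hdeg s S
  have h2 : cutCap (walkCap c D (2 * (s + 1))) S =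
      2 * D * cutCap (fun i j => (lazyWalk c D ^ (2 * (s + 1))) i j) S := by
    unfold cutCap
    rw [mul_sum]
    exact sum_congr rfl fun x _ => walkCap_sum c D _ x _
  rw [h2]
  rw [div_le_iff₀ (by positivity)] at h1
  linarith

end Vale.Agent.P318.R2.H305
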